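import Vale.Agent.Lib.P158.NoIso2

open MeasureTheory
open scoped NNReal
open Vale.Agent.Lib.P158

/-- For every atomless law `G` of the edge weights, with no moment or shape assumption, almost
surely planar first-passage percolation has no isolated bigeodesic: every bigeodesic shares a
vertex with a bigeodesic which is not a shift or a reversal of it. -/
theorem Vale.Agent.Results.P158.NoIsolated.result (G : Measure ℝ≥0) [IsProbabilityMeasure G]
    (hG : ∀ x, G {x} = 0) :
    ∀ᵐ ω ∂(Measure.infinitePi fun _ : E => G), ¬ ∃ L : Line, IsIsolated ω L :=
  no_isolated G hG
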