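import Vale.Agent.Results.P158.BranchingCycle
import Vale.Agent.Results.P158.NoIsolated

namespace Vale.Agent.Results.P158.A0Conj

theorem result :
    (open MeasureTheory Vale.Agent.Lib.P158 in open scoped NNReal in ∀ (G : Measure ℝ≥0) [IsProbabilityMeasure G]
    (hG : ∀ x, G {x} = 0),
      ∀ᵐ ω ∂(Measure.infinitePi fun _ : E => G),
      (∀ L : Line, IsBigeodesic ω L → ∀ k₀ : ℤ,
        (∃ k, k₀ ≤ k ∧ ∃ M : Line, IsBigeodesic ω M ∧ M 0 = L k ∧ M 1 ≠ L (k - 1) ∧ M 1 ≠ L (k + 1)) ∧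
        (∃ k, k ≤ k₀ ∧ ∃ M : Line, IsBigeodesic ω M ∧ M 0 = L k ∧ M 1 ≠ L (k - 1) ∧ M 1 ≠ L (k + 1))) ∧
      (∀ z a b c : V, Allowed ω z a → Allowed ω z b → Allowed ω z c →
        Conn ω z a b ∨ Conn ω z a c ∨ Conn ω z b c)) ∧
    (open MeasureTheory Vale.Agent.Lib.P158 in open scoped NNReal in ∀ (G : Measure ℝ≥0) [IsProbabilityMeasure G]
    (hG : ∀ x, G {x} = 0),
      ∀ᵐ ω ∂(Measure.infinitePi fun _ : E => G), ¬ ∃ L : Line, IsIsolated ω L) :=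
  ⟨@Vale.Agent.Results.P158.BranchingCycle.result, @Vale.Agent.Results.P158.NoIsolated.result⟩

end Vale.Agent.Results.P158.A0Conj
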