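import Vale.Agent.Lib.P158.Two

open MeasureTheory
open scoped NNReal
open Vale.Agent.Lib.P158

/-- For every atomless law `G` of the edge weights, with no moment or shape assumption, almost
surely any two isolated bigeodesics of planar first-passage percolation coincide up to a shift or a
reversal of the parametrisation.  Here a bigeodesic is isolated if every bigeodesic sharing a
vertex with it is a shift or a reversal of it. -/
theorem Vale.Agent.Results.P158.AtMostOneIsolated.result (G : Measure ℝ≥0) [IsProbabilityMeasure G]
    (hG : ∀ x, G {x} = 0) :
    ∀ᵐ ω ∂(Measure.infinitePi fun _ : E => G), ∀ L M : Line, IsIsolated ω L → IsIsolated ω M →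
      ∃ c : ℤ, (∀ k, M k = L (k + c)) ∨ (∀ k, M k = L (c - k)) :=
  isolated_unique G hG
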