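import Vale.Agent.Lib.P158.Branch

open MeasureTheory
open scoped NNReal
open Vale.Agent.Lib.P158

/-- For every atomless law `G` of the edge weights, with no moment or shape assumption, almost
surely every bigeodesic `L` of planar first-passage percolation branches infinitely often in both
directions: for every `k₀` there are `k ≥ k₀` and `k ≤ k₀` and a bigeodesic `M` starting its
positive part at `L k` whose next vertex is neither of the two neighbours of `L k` on `L`. -/
theorem Vale.Agent.Results.P158.Branching.result (G : Measure ℝ≥0) [IsProbabilityMeasure G]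
    (hG : ∀ x, G {x} = 0) :
    ∀ᵐ ω ∂(Measure.infinitePi fun _ : E => G), ∀ L : Line, IsBigeodesic ω L → ∀ k₀ : ℤ,
      (∃ k, k₀ ≤ k ∧ ∃ M : Line, IsBigeodesic ω M ∧ M 0 = L k ∧ M 1 ≠ L (k - 1) ∧ M 1 ≠ L (k + 1)) ∧
      (∃ k, k ≤ k₀ ∧ ∃ M : Line, IsBigeodesic ω M ∧ M 0 = L k ∧ M 1 ≠ L (k - 1) ∧ M 1 ≠ L (k + 1)) :=
  branching G hG
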