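import Vale.Agent.Lib.P158.Tri

open MeasureTheory
open scoped NNReal
open Vale.Agent.Lib.P158

/-- For every atomless law `G` of the edge weights, with no moment or shape assumption, almost
surely the graph of bigeodesic edges of planar first-passage percolation has the following
structure.  Every bigeodesic `L` branches infinitely often in both directions: for every `k₀`
there are `k ≥ k₀` and `k ≤ k₀` and a bigeodesic `M` through `L k` whose next vertex is neither of
the two neighbours of `L k` on `L`.  And it has no tree-like branch point: of any three bigeodesic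
edges at a vertex `z`, two have their other ends joined by a path of bigeodesic edges avoiding `z`,
so that they lie on a cycle of bigeodesic edges through `z`. -/
theorem Vale.Agent.Results.P158.BranchingCycle.result (G : Measure ℝ≥0) [IsProbabilityMeasure G]
    (hG : ∀ x, G {x} = 0) :
    ∀ᵐ ω ∂(Measure.infinitePi fun _ : E => G),
      (∀ L : Line, IsBigeodesic ω L → ∀ k₀ : ℤ,
        (∃ k, k₀ ≤ k ∧ ∃ M : Line, IsBigeodesic ω M ∧ M 0 = L k ∧ M 1 ≠ L (k - 1) ∧ M 1 ≠ L (k + 1)) ∧
        (∃ k, k ≤ k₀ ∧ ∃ M : Line, IsBigeodesic ω M ∧ M 0 = L k ∧ M 1 ≠ L (k - 1) ∧ M 1 ≠ L (k + 1))) ∧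
      (∀ z a b c : V, Allowed ω z a → Allowed ω z b → Allowed ω z c →
        Conn ω z a b ∨ Conn ω z a c ∨ Conn ω z b c) :=
  branching_cycle G hG
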