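import Vale.Agent.Lib.P158.Final

open MeasureTheory
open scoped NNReal
open Vale.Agent.Lib.P158

/-- For every atomless law `G` of the edge weights, with no moment or shape assumption, almost
surely there are no two disjoint isolated bigeodesics of planar first-passage percolation which
come within a bounded lattice distance of each other infinitely often.  Here a bigeodesic is
isolated if every bigeodesic sharing a vertex with it is a shift or a reversal of it. -/
theorem Vale.Agent.Results.P158.NearIsolatedPair.result (G : Measure ℝ≥0) [IsProbabilityMeasure G]
    (hG : ∀ x, G {x} = 0) :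
    ∀ᵐ ω ∂(Measure.infinitePi fun _ : E => G), ¬ ∃ (L M : Line) (R : ℕ),
      IsIsolated ω L ∧ IsIsolated ω M ∧ (∀ i j, L i ≠ M j) ∧
        {p : ℤ × ℤ | dist1 (L p.1) (M p.2) ≤ R}.Infinite :=
  no_near_isolated_pair hG
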